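import Vale.Agent.P225.Metric.CapProfile.Estimates

/-!
P225, module B: the cap profile `dr² + a(r)² σ + b(r)² σ` on `ℝ⁴ × S³`, flat near the core and
linear near infinity.
-/

noncomputable section

namespace Vale.Agent.P225

open scoped ContDiff

/-- All that the assembly uses of the cap. -/
structure IsCap (a b : ℝ → ℝ) (b₀ r₁ R α β ra rb η : ℝ) : Prop where
  smoothA : ContDiff ℝ ∞ a
  smoothB : ContDiff ℝ ∞ b
  r₁_pos : 0 < r₁
  r₁_lt : r₁ < R
  b₀_pos : 0 < b₀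
  core : ∀ r ≤ r₁, a r = r ∧ b r = b₀
  far : ∀ r, R ≤ r → a r = α * (r - ra) ∧ b r = β * (r - rb)
  posA : ∀ r, 0 < r → 0 < a r
  posB : ∀ r, 0 ≤ r → 0 < b r
  radial : ∀ r, 0 < r → deriv (deriv a) r / a r + deriv (deriv b) r / b r ≤ 0
  dirX : ∀ r, 0 < r → 0 ≤ -(deriv (deriv a) r) / a r + 2 * (1 - deriv a r ^ 2) / a r ^ 2 -
    3 * deriv a r * deriv b r / (a r * b r)
  dirTheta : ∀ r, 0 < r → 0 ≤ -(deriv (deriv b) r) / b r + 2 * (1 - deriv b r ^ 2) / b r ^ 2 -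
    3 * deriv a r * deriv b r / (a r * b r)
  α_pos : 0 < α
  β_pos : 0 < β
  η_pos : 0 < η
  α_small : α ^ 2 ≤ 2 / 5 - η
  β_small : β ^ 2 ≤ 2 / 5 - η
  slopes : 343 / 1000 ≤ α * β

theorem exists_cap : ∃ a b b₀ r₁ R α β ra rb η, IsCap a b b₀ r₁ R α β ra rb η := by
  have hcP : Continuous capP := continuous_iff_continuousAt.2 fun t => (Cap.hasDerivAt_capP t).continuousAt
  have hcS : Continuous capS := continuous_iff_continuousAt.2 fun t => (Cap.hasDerivAt_capS t).continuousAt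
  set τ₀ := Cap.cT (1 / 20) with hτ₀
  have hτ₀p : 0 < τ₀ := Cap.cT_pos (by norm_num)
  obtain ⟨mE, hmE, hE⟩ := (isCompact_Icc (a := τ₀) (b := Real.pi / 2)).exists_forall_le'
    (f := capE) (by unfold capE; fun_prop) fun t ht => capE_pos (hτ₀p.trans_le ht.1) ht.2
  obtain ⟨mF, hmF, hF⟩ := (isCompact_Icc (a := τ₀) (b := Real.pi / 2)).exists_forall_le'
    (f := fun t => capS t * (2 * (1 - Cap.ck ^ 2 * Real.sin t ^ 2) - Cap.ck ^ 2 * Real.cos t ^ 2) -
      3 * Cap.ck ^ 2 * capP t * Real.sin t)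
    (by fun_prop) fun t ht => capF_pos (hτ₀p.trans_le ht.1) ht.2 (sq_nonneg _) Cap.ck_sq.le
  set ε := min (1 / 10000) (min mE mF / 50) with hεd
  have hε0 : 0 < ε := lt_min (by norm_num) (div_pos (lt_min hmE hmF) (by norm_num))
  have hε : ε ≤ 1 / 10000 := min_le_left _ _
  have hεm : 50 * ε ≤ min mE mF := by
    have : ε ≤ min mE mF / 50 := min_le_right _ _
    linarith
  set L := max 1 (2 / (Cap.ck * ε)) with hL
  set δ := ε / 4 with hδ
  have hLpos : 0 < L := lt_of_lt_of_le one_pos (le_max_left _ _)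
  have hp : Cap.Params δ L ε := by
    refine ⟨by linarith, le_rfl, by linarith, le_max_left _ _, ?_⟩
    have h2 : 2 / ε ≤ Cap.ck * L := by
      have : 2 / (Cap.ck * ε) ≤ L := le_max_right _ _
      rw [div_le_iff₀ (mul_pos Cap.ck_pos hε0)] at this
      rw [div_le_iff₀ hε0]; linarith
    have hx : 0 < Cap.ck * L := mul_pos Cap.ck_pos hLpos
    rw [Cap.cT, Real.cos_arctan]
    calc 1 / Real.sqrt (1 + (Cap.ck * L) ^ 2) ≤ 1 / (Cap.ck * L) :=
          one_div_le_one_div_of_le hx (Real.le_sqrt_of_sq_le (by linarith))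
      _ ≤ 1 / (2 / ε) := one_div_le_one_div_of_le (by positivity) h2
      _ = ε / 2 := by field_simp
  set R := L + 1 with hR
  have hRpos : 0 ≤ R := by linarith
  obtain ⟨⟨hαl, hαu⟩, ⟨hβl, hβu⟩, -, -⟩ := Cap.compare hp hRpos
  set α := Cap.cA1 δ L R
  set β := Cap.cB1 δ L R
  have hPe := Cap.capP_ge_end (Cap.cT_nonneg hRpos) (Cap.cT_le R)
  have hsR : 1 - ε / 2 ≤ Real.sin (Cap.cT R) := by
    have hLR : L ≤ R := by linarith
    have := Cap.mono_le (f := fun r => Real.sin (Cap.cT r)) hLR Cap.hasDerivAt_sinT fun t _ =>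
      mul_nonneg Cap.ck_pos.le (pow_nonneg (Cap.cosT_pos t).le 3)
    exact hp.sinL.trans this
  have hβl' : 6274 / 10000 ≤ β := by nlinarith [Cap.ck_lb, Cap.ck_ub]
  have hαu' : α ≤ 6313 / 10000 := by
    have := Cap.capP_sub_end (Cap.cT_nonneg hRpos) (Cap.cT_le R)
    have := Cap.capS_end_ub
    norm_num [capSlack] at *
    linarith
  have hα0 : 0 < α := by linarith
  have hβ0 : 0 < β := by linarith
  refine ⟨Cap.cA δ L, Cap.cB δ L, 1, δ, R, α, β, R - Cap.cA δ L R / α, R - Cap.cB δ L R / β,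
    1 / 1000, ?_⟩
  refine ⟨Cap.contDiff_prim Cap.contDiff_A1, contDiff_const.add (Cap.contDiff_prim Cap.contDiff_B1),
    hp.δ_pos, by linarith, one_pos, fun r hr => ?_, fun r hr => ?_, fun r hr => ?_, fun r hr => ?_,
    fun r hr => ?_, fun r hr => ?_, fun r hr => ?_, hα0, hβ0, by norm_num, ?_, ?_, ?_⟩
  · -- core
    have hδ0 := hp.δ_pos
    constructor
    · have h1 : ∀ u ≤ δ, Cap.cA1 δ L u = 1 := fun u hu => by
        rw [Cap.cA1, Cap.prim_core hδ0.le (fun v hv => by rw [Cap.chi_core hδ0 hv, zero_mul]) u hu]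
        ring
      rw [Cap.cA, Cap.cPrim, intervalIntegral.integral_congr (g := fun _ => (1 : ℝ))
        fun u hu => h1 u (le_trans hu.2 (max_le hδ0.le hr)), intervalIntegral.integral_const]
      simp
    · rw [Cap.cB, Cap.cB1, Cap.prim_core hδ0.le (fun u hu => Cap.prim_core hδ0.le
        (fun v hv => by rw [Cap.chi_core hδ0 hv, zero_mul]) u hu) r hr, add_zero]
  · -- far
    have h1 : ∀ f : ℝ → ℝ, Continuous f → (∀ u, R ≤ u → f u = 0) → ∀ u, R ≤ u →
        Cap.cPrim f u = Cap.cPrim f R := fun f hf h0 u hu => by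
      rw [Cap.prim_far hf h0 hu]; ring
    have hzA : ∀ u, R ≤ u → Cap.cA1 δ L u = α := fun u hu => by
      simp only [α, Cap.cA1]
      rw [h1 _ (Cap.contDiff_chi.mul Cap.contDiff_psi).continuous
        (fun v hv => by simp [Cap.chi_far (hR ▸ hv)]) u hu]
    have hzB : ∀ u, R ≤ u → Cap.cB1 δ L u = β := fun u hu =>
      h1 _ (Cap.contDiff_chi.mul Cap.contDiff_phi).continuous
        (fun v hv => by simp [Cap.chi_far (hR ▸ hv)]) u hu
    constructor
    · rw [Cap.cA, Cap.prim_far Cap.contDiff_A1.continuous hzA hr, ← Cap.cA.eq_def]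
      field_simp; ring
    · simp only [Cap.cB]
      rw [Cap.prim_far Cap.contDiff_B1.continuous hzB hr]
      field_simp; ring
  · -- posA
    obtain ⟨-, -, ⟨hA, -⟩, -⟩ := Cap.compare hp hr.le
    exact lt_of_lt_of_le (div_pos (capS_pos (Cap.cT_pos hr) (Cap.cT_le r))
      (mul_pos (Cap.cosT_pos r) Cap.ck_pos)) hA
  · exact lt_of_lt_of_le one_pos (Cap.B_ge_one hr)
  · -- radial
    obtain ⟨-, -, ⟨hA, -⟩, -⟩ := Cap.compare hp hr.le
    have hA0 : 0 < Cap.cA δ L r := lt_of_lt_of_le (div_pos (capS_pos (Cap.cT_pos hr) (Cap.cT_le r))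
      (mul_pos (Cap.cosT_pos r) Cap.ck_pos)) hA
    have hB0 : 0 < Cap.cB δ L r := lt_of_lt_of_le one_pos (Cap.B_ge_one hr.le)
    rw [Cap.deriv_A, Cap.deriv_B, (Cap.hasDerivAt_A1 r).deriv, (Cap.hasDerivAt_B1 r).deriv,
      div_add_div _ _ hA0.ne' hB0.ne']
    refine div_nonpos_of_nonpos_of_nonneg ?_ (mul_pos hA0 hB0).le
    have hq := Cap.ratio hp hε hr
    have hS := Cap.capS_nonneg (Cap.cT_nonneg hr.le) (Cap.cT_le r)
    have h2 : Cap.cA δ L r * Cap.ck ≤ (1 + capSlack) * capS (Cap.cT r) * Cap.cB δ L r :=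
      hq.trans (mul_le_mul_of_nonneg_right (mul_le_mul_of_nonneg_right
        (by norm_num [capSlack]; linarith) hS) hB0.le)
    have h3 : 0 ≤ Cap.cChi δ L r * (Cap.ck * Real.cos (Cap.cT r) ^ 3) :=
      mul_nonneg (Cap.chi_nonneg r) (mul_nonneg Cap.ck_pos.le (pow_nonneg (Cap.cosT_pos r).le 3))
    rw [Cap.cPsi, Cap.cPhi]
    nlinarith [mul_le_mul_of_nonneg_left h2 h3]
  · -- dirX
    obtain ⟨-, -, ⟨hA, -⟩, -⟩ := Cap.compare hp hr.le
    have hA0 : 0 < Cap.cA δ L r := lt_of_lt_of_le (div_pos (capS_pos (Cap.cT_pos hr) (Cap.cT_le r))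
      (mul_pos (Cap.cosT_pos r) Cap.ck_pos)) hA
    have hB0 : 0 < Cap.cB δ L r := lt_of_lt_of_le one_pos (Cap.B_ge_one hr.le)
    have key : 0 ≤ (1 + capSlack) * (Cap.cChi δ L r * Cap.cPsi r) * Cap.cA δ L r +
        2 * (1 - Cap.cA1 δ L r ^ 2) -
        3 * Cap.cA1 δ L r * Cap.cB1 δ L r * (Cap.cA δ L r / Cap.cB δ L r) := by
      rcases le_total r (1 / 20) with h | h
      · exact Cap.dirX_small hp hr h
      · exact Cap.dirX_big hp hε h (hεm.trans (min_le_left _ _)) (hE _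
          ⟨Real.arctan_mono (mul_le_mul_of_nonneg_left h Cap.ck_pos.le), Cap.cT_le r⟩)
    rw [Cap.deriv_A, Cap.deriv_B, (Cap.hasDerivAt_A1 r).deriv]
    refine le_of_le_of_eq (div_nonneg key (sq_nonneg (Cap.cA δ L r))) ?_
    field_simp
  · -- dirTheta
    obtain ⟨-, -, ⟨hA, -⟩, -⟩ := Cap.compare hp hr.le
    have hA0 : 0 < Cap.cA δ L r := lt_of_lt_of_le (div_pos (capS_pos (Cap.cT_pos hr) (Cap.cT_le r))
      (mul_pos (Cap.cosT_pos r) Cap.ck_pos)) hA
    have hB0 : 0 < Cap.cB δ L r := lt_of_lt_of_le one_pos (Cap.B_ge_one hr.le)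
    have key := Cap.dirTheta_aux hp hε hr (hεm.trans (min_le_right _ _)) fun h => hF _
      ⟨Real.arctan_mono (mul_le_mul_of_nonneg_left h Cap.ck_pos.le), Cap.cT_le r⟩
    rw [Cap.deriv_A, Cap.deriv_B, (Cap.hasDerivAt_B1 r).deriv]
    refine le_of_le_of_eq (div_nonneg key (sq_nonneg (Cap.cB δ L r))) ?_
    field_simp
  · nlinarith
  · have hb : β ≤ Cap.ck :=
      hβu.trans (mul_le_of_le_one_right Cap.ck_pos.le (Real.sin_le_one _))
    have := pow_le_pow_left₀ hβ0.le hb 2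
    rw [Cap.ck_sq] at this
    linarith
  · have : (547 / 1000 : ℝ) * (6274 / 10000) ≤ α * β :=
      mul_le_mul (by linarith) hβl' (by norm_num) hα0.le
    linarith

end Vale.Agent.P225
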