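import Mathlib

/-!
P225, module B: the closed cap `a = √(1+x²) sin (ω atan x)/ω`, `b = √(1+x²)`, in the variable
`τ = atan x`, with `ω² = 2 + 1/25`.

Method: `capP' = -(ω² - 1) cos τ capS`, Taylor bounds with rational coefficients in `u = τ²`, and
nonnegative expansions in `u` and `247/100 - u` for the two resulting polynomials.
-/

noncomputable section

namespace Vale.Agent.P225

/-- The slack of the cap. -/
def capSlack : ℝ := 1 / 25

/-- The frequency of the cap. -/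
def capOmega : ℝ := Real.sqrt (2 + capSlack)

/-- `a cos τ`. -/
def capS (τ : ℝ) : ℝ := Real.sin (capOmega * τ) / capOmega

/-- The slope `a'`. -/
def capP (τ : ℝ) : ℝ := Real.cos (capOmega * τ) * Real.cos τ + Real.sin τ * capS τ

/-- `a²` times the Ricci curvature in the directions of the collapsing sphere. -/
def capE (τ : ℝ) : ℝ :=
  2 * (1 - capP τ ^ 2) + (1 + capSlack) * Real.cos τ ^ 2 * capS τ ^ 2 -
    3 * capP τ * capS τ * Real.sin τ

namespace CapTrig

open Finset Real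

/-- Partial sum of the sine series. -/
def sinPart (n : ℕ) (x : ℝ) : ℝ :=
  ∑ k ∈ range n, (-1) ^ k * x ^ (2 * k + 1) / ((2 * k + 1).factorial : ℝ)

/-- Partial sum of the cosine series. -/
def cosPart (n : ℕ) (x : ℝ) : ℝ :=
  ∑ k ∈ range n, (-1) ^ k * x ^ (2 * k) / ((2 * k).factorial : ℝ)

theorem nonneg_of_deriv {f f' : ℝ → ℝ} (h0 : f 0 = 0) (hd : ∀ x, HasDerivAt f (f' x) x)
    (hp : ∀ x, 0 ≤ x → 0 ≤ f' x) {x : ℝ} (hx : 0 ≤ x) : 0 ≤ f x := by
  have hm : MonotoneOn f (Set.Ici 0) :=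
    monotoneOn_of_hasDerivWithinAt_nonneg (convex_Ici 0)
      (continuous_iff_continuousAt.2 fun y => (hd y).continuousAt).continuousOn
      (fun y _ => (hd y).hasDerivWithinAt)
      (fun y hy => hp y (interior_subset (s := Set.Ici (0 : ℝ)) hy))
  simpa [h0] using hm Set.self_mem_Ici hx hx

theorem hasDerivAt_sinPart (n : ℕ) (x : ℝ) : HasDerivAt (sinPart n) (cosPart n x) x := by
  refine HasDerivAt.fun_sum fun k _ => ?_
  refine (((hasDerivAt_pow (2 * k + 1) x).const_mul ((-1 : ℝ) ^ k)).div_const _).congr_deriv ?_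
  rw [Nat.factorial_succ]
  push_cast
  field_simp

theorem hasDerivAt_cosPart (n : ℕ) (x : ℝ) :
    HasDerivAt (cosPart (n + 1)) (-sinPart n x) x := by
  have e : cosPart (n + 1) = fun y =>
      (∑ k ∈ range n, (-1) ^ (k + 1) * y ^ (2 * k + 2) / ((2 * k + 2).factorial : ℝ)) + 1 := by
    funext y
    simp [cosPart, sum_range_succ', mul_add]
  rw [e, sinPart, ← sum_neg_distrib]
  refine (HasDerivAt.fun_sum fun k _ => ?_).add_const 1
  refine (((hasDerivAt_pow (2 * k + 2) x).const_mul ((-1 : ℝ) ^ (k + 1))).div_const _).congr_deriv ?_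
  rw [Nat.factorial_succ (2 * k + 1)]
  push_cast
  field_simp
  ring

theorem taylor_bounds (n : ℕ) : ∀ x : ℝ, 0 ≤ x →
    0 ≤ (-1 : ℝ) ^ (n + 1) * (cos x - cosPart (n + 1) x) ∧
      0 ≤ (-1 : ℝ) ^ (n + 1) * (sin x - sinPart (n + 1) x) := by
  induction n with
  | zero =>
    intro x hx
    simp [cosPart, sinPart, cos_le_one, sin_le hx]
  | succ n ih =>
    have hc : ∀ x : ℝ, 0 ≤ x → 0 ≤ (-1 : ℝ) ^ (n + 2) * (cos x - cosPart (n + 2) x) := by
      refine fun x hx => nonneg_of_deriv (f' := fun y =>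
        (-1 : ℝ) ^ (n + 2) * (-sin y - -sinPart (n + 1) y)) ?_ (fun y =>
        ((hasDerivAt_cos y).sub (hasDerivAt_cosPart (n + 1) y)).const_mul _) (fun y hy => ?_) hx
      · simp [cosPart, sum_range_succ']
      · have := (ih y hy).2
        rw [pow_succ]
        linarith
    refine fun x hx => ⟨hc x hx, ?_⟩
    refine nonneg_of_deriv (f' := fun y => (-1 : ℝ) ^ (n + 2) * (cos y - cosPart (n + 2) y)) ?_
      (fun y => ((hasDerivAt_sin y).sub (hasDerivAt_sinPart (n + 2) y)).const_mul _) hc hx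
    simp [sinPart]

theorem sin_le5 {x : ℝ} (hx : 0 ≤ x) : sin x ≤ x - x ^ 3 / 6 + x ^ 5 / 120 := by
  have h := (taylor_bounds 2 x hx).2
  norm_num [sinPart, sum_range_succ, Nat.factorial] at h
  linarith

theorem le_sin7 {x : ℝ} (hx : 0 ≤ x) :
    x - x ^ 3 / 6 + x ^ 5 / 120 - x ^ 7 / 5040 ≤ sin x := by
  have h := (taylor_bounds 3 x hx).2
  norm_num [sinPart, sum_range_succ, Nat.factorial] at h
  linarith

theorem le_sin11 {x : ℝ} (hx : 0 ≤ x) :
    x - x ^ 3 / 6 + x ^ 5 / 120 - x ^ 7 / 5040 + x ^ 9 / 362880 - x ^ 11 / 39916800 ≤ sin x := by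
  have h := (taylor_bounds 5 x hx).2
  norm_num [sinPart, sum_range_succ, Nat.factorial] at h
  linarith

theorem le_cos6 {x : ℝ} (hx : 0 ≤ x) : 1 - x ^ 2 / 2 + x ^ 4 / 24 - x ^ 6 / 720 ≤ cos x := by
  have h := (taylor_bounds 3 x hx).1
  norm_num [cosPart, sum_range_succ, Nat.factorial] at h
  linarith

theorem omega_sq : capOmega ^ 2 = 51 / 25 := by
  rw [capOmega, sq_sqrt (by norm_num [capSlack])]
  norm_num [capSlack]

theorem omega_pos : 0 < capOmega := sqrt_pos.2 (by norm_num [capSlack])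

theorem omega_lt : capOmega < 3 / 2 := by
  nlinarith [omega_sq, omega_pos]

/-- Lower bound for `capS τ / τ`. -/
def sl (u : ℝ) : ℝ :=
  1 - 51 / 150 * u + (51 / 25) ^ 2 / 120 * u ^ 2 - (51 / 25) ^ 3 / 5040 * u ^ 3

/-- Upper bound for `capS τ / τ`. -/
def sv (u : ℝ) : ℝ := 1 - 51 / 150 * u + (51 / 25) ^ 2 / 120 * u ^ 2

/-- Upper bound for `sin τ / τ`. -/
def sh (u : ℝ) : ℝ := 1 - u / 6 + u ^ 2 / 120

/-- Lower bound for `cos τ`. -/
def cl (u : ℝ) : ℝ := 1 - u / 2 + u ^ 2 / 24 - u ^ 3 / 720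

/-- Lower bound for `(1 - capP τ) / τ²`: the primitive of `(ω² - 1) τ cl sl`, over `τ²`. -/
def capJ (u : ℝ) : ℝ :=
  (13 / 25) + (-273 / 1250) * u + (60047 / 1406250) * u ^ 2 +
    (-4425161 / 984375000) * u ^ 3 + (11299951 / 39375000000) * u ^ 4 +
    (-161551 / 15750000000) * u ^ 5 + (63869 / 367500000000) * u ^ 6

theorem capS_lb {t : ℝ} (ht : 0 ≤ t) : t * sl (t ^ 2) ≤ capS t := by
  have h := le_sin7 (mul_nonneg omega_pos.le ht)
  rw [capS, le_div_iff₀ omega_pos]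
  refine le_trans (le_of_eq ?_) h
  simp only [sl, ← omega_sq]
  rw [show (51 : ℝ) / 150 = capOmega ^ 2 / 6 by rw [omega_sq]; norm_num]
  ring

theorem capS_ub {t : ℝ} (ht : 0 ≤ t) : capS t ≤ t * sv (t ^ 2) := by
  have h := sin_le5 (mul_nonneg omega_pos.le ht)
  rw [capS, div_le_iff₀ omega_pos]
  refine h.trans (le_of_eq ?_)
  simp only [sv, ← omega_sq]
  rw [show (51 : ℝ) / 150 = capOmega ^ 2 / 6 by rw [omega_sq]; norm_num]
  ring

theorem sin_ub {t : ℝ} (ht : 0 ≤ t) : sin t ≤ t * sh (t ^ 2) := by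
  refine (sin_le5 ht).trans (le_of_eq ?_)
  simp only [sh]
  ring

theorem cos_lb {t : ℝ} (ht : 0 ≤ t) : cl (t ^ 2) ≤ cos t := by
  refine le_trans (le_of_eq ?_) (le_cos6 ht)
  simp only [cl]
  ring

theorem sq_le_range {t : ℝ} (h0 : 0 ≤ t) (h1 : t ≤ π / 2) : t ^ 2 ≤ 247 / 100 := by
  have h : t ≤ 15708 / 10000 := by linarith [pi_lt_d4]
  nlinarith

theorem sl_ge {u : ℝ} (h0 : 0 ≤ u) (h1 : u ≤ 247 / 100) : 1 / 4 ≤ sl u := by
  obtain ⟨a, rfl⟩ : ∃ a : NNReal, (a : ℝ) = u := ⟨⟨u, h0⟩, rfl⟩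
  obtain ⟨c, hc⟩ : ∃ c : NNReal, (c : ℝ) = 247 / 100 - a := ⟨⟨_, sub_nonneg.2 h1⟩, rfl⟩
  have key : sl a = 1 / 4 + ((750000 / 15069223) * (a : ℝ) ^ 0 * (c : ℝ) ^ 3 +
      (1410200 / 15069223) * (a : ℝ) ^ 1 * (c : ℝ) ^ 2 +
      (195494803 / 3767305750) * (a : ℝ) ^ 2 * (c : ℝ) ^ 1 +
      (843462827203 / 131855701250000) * (a : ℝ) ^ 3 * (c : ℝ) ^ 0) := by
    rw [hc, sl]
    ring
  rw [key]
  exact le_add_of_nonneg_right (by positivity)

theorem capE_poly {u : ℝ} (h0 : 0 ≤ u) (h1 : u ≤ 247 / 100) :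
    1 / 20 ≤ 2 * capJ u * (2 - u * capJ u) + 26 / 25 * (1 - u * sh u ^ 2) * sl u ^ 2 -
      3 * (1 - u * capJ u) * sv u * sh u := by
  obtain ⟨a, rfl⟩ : ∃ a : NNReal, (a : ℝ) = u := ⟨⟨u, h0⟩, rfl⟩
  obtain ⟨c, hc⟩ : ∃ c : NNReal, (c : ℝ) = 247 / 100 - a := ⟨⟨_, sub_nonneg.2 h1⟩, rfl⟩
  have key : 2 * capJ a * (2 - a * capJ a) + 26 / 25 * (1 - a * sh a ^ 2) * sl a ^ 2 -
      3 * (1 - a * capJ a) * sv a * sh a = 1 / 20 + ((7000000000000000000000000 / 12736801848653359358345383963927) * (a : ℝ) ^ 0 * (c : ℝ) ^ 13 +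
      (419200000000000000000000 / 75365691412150055374824757183) * (a : ℝ) ^ 1 * (c : ℝ) ^ 12 +
      (264053095424000000000000000 / 8817785895221556478854496590411) * (a : ℝ) ^ 2 * (c : ℝ) ^ 11 +
      (6913633298173734400000000000 / 61724501266550895351981476132877) * (a : ℝ) ^ 3 * (c : ℝ) ^ 10 +
      (19089791963178493627456000000 / 61724501266550895351981476132877) * (a : ℝ) ^ 4 * (c : ℝ) ^ 9 +
      (352839711882052449925496166400 / 555520511398958058167833285195893) * (a : ℝ) ^ 5 * (c : ℝ) ^ 8 +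
      (31423807732921218395709917264768 / 32405363164939220059790274969760425) * (a : ℝ) ^ 6 * (c : ℝ) ^ 7 +
      (66784011982511236699302813719406352 / 60760055934261037612106765568300796875) * (a : ℝ) ^ 7 * (c : ℝ) ^ 6 +
      (776461785889835103496660058662078354 / 843889665753625522390371744004177734375) * (a : ℝ) ^ 8 * (c : ℝ) ^ 5 +
      (8523604341567479621655250840776709803757 / 15190013983565259403026691392075199218750000) * (a : ℝ) ^ 9 * (c : ℝ) ^ 4 +
      (68749279188248006173222660440633796056953 / 283546927693218175523164905985403718750000000) * (a : ℝ) ^ 10 * (c : ℝ) ^ 3 +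
      (99773274912924046011838675243848515677007419 / 1417734638466090877615824529927018593750000000000) * (a : ℝ) ^ 11 * (c : ℝ) ^ 2 +
      (58198566253740441161540693292444243780673721 / 4725782128220302925386081766423395312500000000000) * (a : ℝ) ^ 12 * (c : ℝ) ^ 1 +
      (845131266991128487254518361604891100009347346753 / 860092347336095132420266881489057946875000000000000000) * (a : ℝ) ^ 13 * (c : ℝ) ^ 0) := by
    rw [hc]
    simp only [capJ, sh, sl, sv]
    ring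
  rw [key]
  exact le_add_of_nonneg_right (by positivity)

theorem capF_poly {u : ℝ} (h0 : 0 ≤ u) (h1 : u ≤ 247 / 100) :
    1 / 1000 ≤ (2 - 394 / 1000 - 394 / 1000 * (u * sh u ^ 2)) * sl u -
      3 * (394 / 1000) * (1 - u * capJ u) * sh u := by
  obtain ⟨a, rfl⟩ : ∃ a : NNReal, (a : ℝ) = u := ⟨⟨u, h0⟩, rfl⟩
  obtain ⟨c, hc⟩ : ∃ c : NNReal, (c : ℝ) = 247 / 100 - a := ⟨⟨_, sub_nonneg.2 h1⟩, rfl⟩
  have key : (2 - 394 / 1000 - 394 / 1000 * ((a : ℝ) * sh a ^ 2)) * sl a -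
      3 * (394 / 1000) * (1 - a * capJ a) * sh a = 1 / 1000 + ((423000000000000000 / 3421941488772218992567) * (a : ℝ) ^ 0 * (c : ℝ) ^ 9 +
      (3489852000000000000 / 3421941488772218992567) * (a : ℝ) ^ 1 * (c : ℝ) ^ 8 +
      (37167390710656000000 / 10265824466316656977701) * (a : ℝ) ^ 2 * (c : ℝ) ^ 7 +
      (1565091140653970331200 / 215582313792649796531721) * (a : ℝ) ^ 3 * (c : ℝ) ^ 6 +
      (48642144939179864000608 / 5389557844816244913293025) * (a : ℝ) ^ 4 * (c : ℝ) ^ 5 +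
      (1604206681090284551115214 / 224564910200676871387209375) * (a : ℝ) ^ 5 * (c : ℝ) ^ 4 +
      (158385524130398205930114577 / 44912982040135374277441875000) * (a : ℝ) ^ 6 * (c : ℝ) ^ 3 +
      (941395792465013437263179666281 / 943172622842842859826279375000000) * (a : ℝ) ^ 7 * (c : ℝ) ^ 2 +
      (4777940292754532553970492234229 / 37726904913713714393051175000000000) * (a : ℝ) ^ 8 * (c : ℝ) ^ 1 +
      (27649030192062107152134918885431 / 25151269942475809595367450000000000000) * (a : ℝ) ^ 9 * (c : ℝ) ^ 0) := by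
    rw [hc]
    simp only [capJ, sh, sl]
    ring
  rw [key]
  exact le_add_of_nonneg_right (by positivity)

theorem hasDerivAt_capS (t : ℝ) : HasDerivAt capS (cos (capOmega * t)) t := by
  have h := (((hasDerivAt_id' t).const_mul capOmega).sin).div_const capOmega
  refine h.congr_deriv ?_
  field_simp [omega_pos.ne']

theorem hasDerivAt_capP (t : ℝ) : HasDerivAt capP (-(26 / 25) * cos t * capS t) t := by
  have h := ((((hasDerivAt_id' t).const_mul capOmega).cos).mul (hasDerivAt_cos t)).add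
    ((hasDerivAt_sin t).mul (hasDerivAt_capS t))
  refine h.congr_deriv ?_
  have e : sin (capOmega * t) = capS t * capOmega := by
    rw [capS, div_mul_cancel₀ _ omega_pos.ne']
  rw [e]
  linear_combination -(capS t * cos t) * omega_sq

theorem capS_nonneg {t : ℝ} (h0 : 0 ≤ t) (h1 : t ≤ π / 2) : 0 ≤ capS t :=
  div_nonneg (sin_nonneg_of_nonneg_of_le_pi (mul_nonneg omega_pos.le h0) (by
    nlinarith [omega_lt, omega_pos, pi_pos])) omega_pos.le

theorem antitoneOn_capP : AntitoneOn capP (Set.Icc 0 (π / 2)) := by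
  refine antitoneOn_of_hasDerivWithinAt_nonpos (convex_Icc _ _)
    (continuous_iff_continuousAt.2 fun t => (hasDerivAt_capP t).continuousAt).continuousOn
    (fun t _ => (hasDerivAt_capP t).hasDerivWithinAt) fun t ht => ?_
  rw [interior_Icc] at ht
  have hc := cos_nonneg_of_mem_Icc ⟨by linarith [ht.1, pi_pos], ht.2.le⟩
  nlinarith [mul_nonneg hc (capS_nonneg ht.1.le ht.2.le)]

theorem capP_nonneg {t : ℝ} (h0 : 0 ≤ t) (h1 : t ≤ π / 2) : 0 ≤ capP t := by
  have h := antitoneOn_capP ⟨h0, h1⟩ ⟨by linarith [pi_pos], le_rfl⟩ h1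
  have h' : capP (π / 2) = capS (π / 2) := by simp [capP]
  rw [h'] at h
  exact (capS_nonneg (by linarith [pi_pos]) le_rfl).trans h

theorem capP_ub {t : ℝ} (h0 : 0 ≤ t) (h1 : t ≤ π / 2) :
    capP t ≤ 1 - t ^ 2 * capJ (t ^ 2) := by
  have hd : ∀ y : ℝ, HasDerivAt (fun y => 1 - y ^ 2 * capJ (y ^ 2) - capP y)
      (26 / 25 * (cos y * capS y - y * cl (y ^ 2) * sl (y ^ 2))) y := by
    intro y
    have e : (fun y => 1 - y ^ 2 * capJ (y ^ 2) - capP y) = fun y => 1 - ((13 / 25) * y ^ 2 +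
        (-273 / 1250) * y ^ 4 + (60047 / 1406250) * y ^ 6 + (-4425161 / 984375000) * y ^ 8 +
        (11299951 / 39375000000) * y ^ 10 + (-161551 / 15750000000) * y ^ 12 +
        (63869 / 367500000000) * y ^ 14) - capP y := by
      funext z
      simp only [capJ]
      ring
    rw [e]
    refine ((((((((hasDerivAt_pow 2 y).const_mul _).add ((hasDerivAt_pow 4 y).const_mul _)).add
      ((hasDerivAt_pow 6 y).const_mul _)).add ((hasDerivAt_pow 8 y).const_mul _)).add
      ((hasDerivAt_pow 10 y).const_mul _)).add ((hasDerivAt_pow 12 y).const_mul _)).add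
      ((hasDerivAt_pow 14 y).const_mul _)).const_sub 1 |>.sub (hasDerivAt_capP y)
      |>.congr_deriv ?_
    simp only [cl, sl]
    push_cast
    ring
  have hm : MonotoneOn (fun y => 1 - y ^ 2 * capJ (y ^ 2) - capP y) (Set.Icc 0 (π / 2)) := by
    refine monotoneOn_of_hasDerivWithinAt_nonneg (convex_Icc _ _)
      (continuous_iff_continuousAt.2 fun y => (hd y).continuousAt).continuousOn
      (fun y _ => (hd y).hasDerivWithinAt) fun y hy => ?_
    rw [interior_Icc] at hy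
    have hs := sl_ge (sq_nonneg y) (sq_le_range hy.1.le hy.2.le)
    have hys : 0 ≤ y * sl (y ^ 2) := mul_nonneg hy.1.le (by linarith)
    have a1 := mul_le_mul_of_nonneg_right (cos_lb hy.1.le) hys
    have a2 := mul_le_mul_of_nonneg_left (capS_lb hy.1.le)
      (cos_nonneg_of_mem_Icc ⟨by linarith [hy.1, pi_pos], hy.2.le⟩)
    nlinarith
  have h := hm ⟨le_rfl, by linarith [pi_pos]⟩ ⟨h0, h1⟩ h0
  simp [capP, capS] at h
  exact h

end CapTrig

open CapTrig in
/-- Strict positivity along the cap, including the end `τ = π/2` (the cone). -/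
theorem capE_pos {τ : ℝ} (h0 : 0 < τ) (h1 : τ ≤ Real.pi / 2) : 0 < capE τ := by
  have hu := sq_le_range h0.le h1
  have hP0 := capP_nonneg h0.le h1
  have hP1 := capP_ub h0.le h1
  have hS0 := capS_nonneg h0.le h1
  have hSl := capS_lb h0.le
  have hSh := capS_ub h0.le
  have hs0 : 0 ≤ Real.sin τ :=
    Real.sin_nonneg_of_nonneg_of_le_pi h0.le (by linarith [Real.pi_pos])
  have hs1 := sin_ub h0.le
  have hl := sl_ge (sq_nonneg τ) hu
  have hq := capE_poly (sq_nonneg τ) hu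
  have e : capE τ = 2 * (1 - capP τ ^ 2) + 26 / 25 * (Real.cos τ ^ 2 * capS τ ^ 2) -
      3 * (capP τ * capS τ * Real.sin τ) := by
    simp only [capE, capSlack]
    ring
  have b1 : capP τ ^ 2 ≤ (1 - τ ^ 2 * capJ (τ ^ 2)) ^ 2 := pow_le_pow_left₀ hP0 hP1 2
  have b2 : (1 - τ ^ 2 * sh (τ ^ 2) ^ 2) * (τ * sl (τ ^ 2)) ^ 2 ≤
      Real.cos τ ^ 2 * capS τ ^ 2 := by
    refine (mul_le_mul_of_nonneg_right ?_ (sq_nonneg _)).trans (mul_le_mul_of_nonneg_left
      (pow_le_pow_left₀ (mul_nonneg h0.le (by linarith)) hSl 2) (sq_nonneg _))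
    rw [Real.cos_sq']
    have := pow_le_pow_left₀ hs0 hs1 2
    nlinarith
  have b3 : capP τ * capS τ * Real.sin τ ≤
      (1 - τ ^ 2 * capJ (τ ^ 2)) * (τ * sv (τ ^ 2)) * (τ * sh (τ ^ 2)) :=
    mul_le_mul (mul_le_mul hP1 hSh hS0 (hP0.trans hP1)) hs1 hs0
      (mul_nonneg (hP0.trans hP1) (hS0.trans hSh))
  rw [e]
  nlinarith [mul_le_mul_of_nonneg_left hq (sq_nonneg τ), pow_pos h0 2]

set_option linter.unusedVariables false in
open CapTrig in
/-- The second link factor along the cap, for a squared end slope `μ`: with `b = √(b₀²+μ r²)`,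
this is `b² capS` times its Ricci curvature. -/
theorem capF_pos {τ μ : ℝ} (h0 : 0 < τ) (h1 : τ ≤ Real.pi / 2) (hμ0 : 0 ≤ μ)
    (hμ : μ ≤ 394 / 1000) :
    0 < capS τ * (2 * (1 - μ * Real.sin τ ^ 2) - μ * Real.cos τ ^ 2) -
      3 * μ * capP τ * Real.sin τ := by
  have hu := sq_le_range h0.le h1
  have hP0 := capP_nonneg h0.le h1
  have hP1 := capP_ub h0.le h1
  have hS0 := capS_nonneg h0.le h1
  have hSl := capS_lb h0.le
  have hs0 : 0 ≤ Real.sin τ :=
    Real.sin_nonneg_of_nonneg_of_le_pi h0.le (by linarith [Real.pi_pos])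
  have hs1 := sin_ub h0.le
  have hl := sl_ge (sq_nonneg τ) hu
  have hq := capF_poly (sq_nonneg τ) hu
  rw [Real.cos_sq']
  have hs2 : Real.sin τ ^ 2 ≤ τ ^ 2 * sh (τ ^ 2) ^ 2 :=
    (pow_le_pow_left₀ hs0 hs1 2).trans_eq (by ring)
  have hs3 : Real.sin τ ^ 2 ≤ 1 := Real.sin_sq_le_one τ
  set s2 := Real.sin τ ^ 2
  have m0 : 0 ≤ 2 - 394 / 1000 - 394 / 1000 * s2 := by nlinarith
  have b1 : τ * sl (τ ^ 2) * (2 - 394 / 1000 - 394 / 1000 * (τ ^ 2 * sh (τ ^ 2) ^ 2)) ≤
      capS τ * (2 - 394 / 1000 - 394 / 1000 * s2) := by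
    refine (mul_le_mul_of_nonneg_left ?_ (mul_nonneg h0.le (by linarith))).trans
      (mul_le_mul_of_nonneg_right hSl m0)
    linarith
  have b2 : capP τ * Real.sin τ ≤ (1 - τ ^ 2 * capJ (τ ^ 2)) * (τ * sh (τ ^ 2)) :=
    mul_le_mul hP1 hs1 hs0 (hP0.trans hP1)
  have b3 : 0 ≤ (394 / 1000 - μ) * (capS τ * (1 + s2) + 3 * (capP τ * Real.sin τ)) := by
    have : 0 ≤ capS τ * (1 + s2) := mul_nonneg hS0 (by positivity)
    have := mul_nonneg hP0 hs0
    exact mul_nonneg (by linarith) (by linarith)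
  nlinarith [mul_le_mul_of_nonneg_left hq h0.le]

/-- The limiting slope. -/
theorem capP_end : capP (Real.pi / 2) = capS (Real.pi / 2) := by
  simp [capP]

open CapTrig in
theorem capS_end_lb : 547 / 1000 ≤ capS (Real.pi / 2) := by
  have hp : (0 : ℝ) ≤ Real.pi / 2 := by linarith [Real.pi_pos]
  set t := Real.pi / 2 with ht
  have l : 15707 / 10000 ≤ t := by rw [ht]; linarith [Real.pi_gt_d4]
  have r : t ≤ 15708 / 10000 := by rw [ht]; linarith [Real.pi_lt_d4]
  have h := le_sin11 (mul_nonneg omega_pos.le hp)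
  rw [capS, le_div_iff₀ omega_pos]
  have e : ∀ k, (capOmega * t) ^ (2 * k + 1) = capOmega * ((51 / 25) ^ k * t ^ (2 * k + 1)) := by
    intro k
    rw [← omega_sq]
    ring
  have e3 := e 1
  have e5 := e 2
  have e7 := e 3
  have e9 := e 4
  have e11 := e 5
  norm_num at e3 e5 e7 e9 e11
  rw [e3, e5, e7, e9, e11] at h
  have u3 := pow_le_pow_left₀ hp r 3
  have l5 := pow_le_pow_left₀ (by norm_num) l 5
  have u7 := pow_le_pow_left₀ hp r 7
  have l9 := pow_le_pow_left₀ (by norm_num) l 9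
  have u11 := pow_le_pow_left₀ hp r 11
  refine le_trans ?_ h
  nlinarith [omega_pos]

open CapTrig in
theorem capP_le_one {τ : ℝ} (h0 : 0 ≤ τ) (h1 : τ ≤ Real.pi / 2) : capP τ ≤ 1 := by
  have h := antitoneOn_capP ⟨le_rfl, by linarith [Real.pi_pos]⟩ ⟨h0, h1⟩ h0
  simpa [capP, capS] using h

open CapTrig in
theorem capS_pos {τ : ℝ} (h0 : 0 < τ) (h1 : τ ≤ Real.pi / 2) : 0 < capS τ :=
  div_pos (Real.sin_pos_of_pos_of_lt_pi (mul_pos omega_pos h0) (by
    nlinarith [omega_lt, omega_pos, Real.pi_pos])) omega_pos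

end Vale.Agent.P225
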