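import Vale.Agent.P225.Geom.Warped

/-!
P225, module B: Ricci curvature of the links used: products of two round spheres and the line from
the product point to the normal point.
-/

noncomputable section

namespace Vale.Agent.P225

open Matrix

/-- The Levi-Civita symbol. -/
def eps3 (i j k : Fin 3) : ℝ :=
  if j = i + 1 ∧ k = i + 2 then 1 else if j = i + 2 ∧ k = i + 1 then -1 else 0

/-- Split a link index into the factor and the direction. -/
def lkSplit (i : Fin 6) : Fin 2 × Fin 3 := (⟨i / 3, by omega⟩, ⟨i % 3, by omega⟩)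

/-- Structure constants of the link: two `so(3)` factors with `[S_i, S_j] = S_k`. -/
def linkC (i j k : Fin 6) : ℝ :=
  if (lkSplit i).1 = (lkSplit j).1 ∧ (lkSplit j).1 = (lkSplit k).1 then
    eps3 (lkSplit i).2 (lkSplit j).2 (lkSplit k).2
  else 0

/-- A `2 × 2` block matrix tensored with the identity of `ℝ³`. -/
def adInv (B : Matrix (Fin 2) (Fin 2) ℝ) : Matrix (Fin 6) (Fin 6) ℝ :=
  fun i j => if (lkSplit i).2 = (lkSplit j).2 then B (lkSplit i).1 (lkSplit j).1 else 0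

/-- The inverse Gram matrix on the line from the product point `θ = 0` to the normal point
`θ = 1` with scale `P`; its determinant does not depend on `θ`. -/
def lineQ (P θ : ℝ) : Matrix (Fin 2) (Fin 2) ℝ :=
  (Real.sqrt 3 * P / Real.sqrt (1 + 2 * θ)) • !![1 + θ, θ; θ, 1 + θ]

/-- The Gram matrix on the line. -/
def lineM (P θ : ℝ) : Matrix (Fin 6) (Fin 6) ℝ := (adInv (lineQ P θ))⁻¹

namespace LinkLine

open scoped Kronecker

/-- The link indices as pairs (factor, direction). -/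
def lkE : Fin 6 ≃ Fin 2 × Fin 3 := (finProdFinEquiv (m := 2) (n := 3)).symm

lemma lkE_eq (i : Fin 6) : lkSplit i = lkE i := rfl

lemma sum_lk (f : Fin 2 × Fin 3 → ℝ) :
    ∑ i : Fin 6, f (lkE i) = ∑ I : Fin 2, ∑ a : Fin 3, f (I, a) := by
  rw [Equiv.sum_comp lkE f, Fintype.sum_prod_type]

lemma adInv_apply (B : Matrix (Fin 2) (Fin 2) ℝ) (i j : Fin 6) :
    adInv B i j = if (lkE i).2 = (lkE j).2 then B (lkE i).1 (lkE j).1 else 0 := rfl

lemma linkC_apply (i j k : Fin 6) :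
    linkC i j k = if (lkE i).1 = (lkE j).1 ∧ (lkE j).1 = (lkE k).1 then
      eps3 (lkE i).2 (lkE j).2 (lkE k).2 else 0 := rfl

lemma adInv_eq (B : Matrix (Fin 2) (Fin 2) ℝ) :
    adInv B = Matrix.reindex lkE.symm lkE.symm (B ⊗ₖ (1 : Matrix (Fin 3) (Fin 3) ℝ)) := by
  ext i j
  simp [adInv_apply, Matrix.one_apply]

lemma adInv_mul_eq_one {B C : Matrix (Fin 2) (Fin 2) ℝ} (h : B * C = 1) :
    adInv B * adInv C = 1 := by
  rw [adInv_eq, adInv_eq, Matrix.reindex_apply, Matrix.reindex_apply,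
    Matrix.submatrix_mul_equiv, ← Matrix.mul_kronecker_mul, h, one_mul, Matrix.one_kronecker_one,
    Matrix.submatrix_one_equiv]

lemma det_adInv (B : Matrix (Fin 2) (Fin 2) ℝ) : (adInv B).det = B.det ^ 3 := by
  rw [adInv_eq, Matrix.det_reindex_self, Matrix.det_kronecker]
  simp

lemma eps3_swap23 (a b c : Fin 3) : eps3 a c b = -eps3 a b c := by
  fin_cases a <;> fin_cases b <;> fin_cases c <;> simp [eps3]

lemma eps3_rot (a b c : Fin 3) : eps3 b c a = eps3 a b c := by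
  fin_cases a <;> fin_cases b <;> fin_cases c <;> simp [eps3]

lemma eps3_diag (f g : Fin 3) : eps3 f g f = 0 := by
  fin_cases f <;> fin_cases g <;> simp [eps3]

lemma eps3_pair (a b : Fin 3) :
    ∑ f, ∑ g, eps3 f b g * eps3 a g f = if a = b then 2 else 0 := by
  fin_cases a <;> fin_cases b <;> simp [eps3, Fin.sum_univ_three] <;> norm_num

lemma eps3_pair' (a b : Fin 3) :
    ∑ f, ∑ g, eps3 f a g * eps3 g b f = if a = b then -2 else 0 := by
  fin_cases a <;> fin_cases b <;> simp [eps3, Fin.sum_univ_three] <;> norm_num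

lemma sum_linkC_mul (B : Matrix (Fin 2) (Fin 2) ℝ) (i j e : Fin 6) :
    ∑ h, linkC i j h * adInv B h e =
      if (lkE i).1 = (lkE j).1 then
        eps3 (lkE i).2 (lkE j).2 (lkE e).2 * B (lkE i).1 (lkE e).1 else 0 := by
  simp only [linkC_apply, adInv_apply]
  rw [sum_lk (fun h => (if (lkE i).1 = (lkE j).1 ∧ (lkE j).1 = h.1 then
    eps3 (lkE i).2 (lkE j).2 h.2 else 0) * if h.2 = (lkE e).2 then B h.1 (lkE e).1 else 0)]
  by_cases h : (lkE i).1 = (lkE j).1
  · simp [h, mul_ite, ite_mul, Finset.sum_ite_eq, Finset.sum_ite_eq']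
  · simp [h]

/-- The reduced connection coefficients. -/
def gam (G Q : Matrix (Fin 2) (Fin 2) ℝ) (I J L : Fin 2) : ℝ :=
  (1 / 2) * ((if I = J ∧ I = L then 1 else 0) + G I J * (Q L I - Q L J))

/-- The reduced Ricci tensor. -/
def ric (G Q : Matrix (Fin 2) (Fin 2) ℝ) : Matrix (Fin 2) (Fin 2) ℝ :=
  Matrix.of fun I J => 2 * (gam G Q I J I - ∑ K, ∑ D, gam G Q K J D * gam G Q I D K)

lemma linkGamma_adInv {G Q : Matrix (Fin 2) (Fin 2) ℝ} (hG : G.IsSymm) (hQ : Q * G = 1)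
    (i j l : Fin 6) :
    linkGamma (adInv G) linkC i j l =
      eps3 (lkE i).2 (lkE j).2 (lkE l).2 * gam G Q (lkE i).1 (lkE j).1 (lkE l).1 := by
  have hinv : (adInv G)⁻¹ = adInv Q := Matrix.inv_eq_left_inv (adInv_mul_eq_one hQ)
  simp only [linkGamma, hinv, Finset.sum_sub_distrib, sum_linkC_mul]
  simp only [adInv_apply]
  generalize lkE i = x, lkE j = y, lkE l = z
  obtain ⟨I, a⟩ := x
  obtain ⟨J, b⟩ := y
  obtain ⟨L, f⟩ := z
  dsimp only
  rw [sum_lk (fun e => (if f = e.2 then Q L e.1 else 0) *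
    (((if I = J then eps3 a b e.2 * G I e.1 else 0) -
      if I = e.1 then eps3 a e.2 b * G I J else 0) -
      if J = e.1 then eps3 b e.2 a * G J I else 0))]
  simp only [ite_mul, zero_mul, Finset.sum_ite_eq, Finset.mem_univ, if_true]
  simp only [eps3_swap23 a b f, eps3_rot a b f, hG.apply I J]
  have e : ∀ I' L', Q L' 0 * G 0 I' + Q L' 1 * G 1 I' = if L' = I' then 1 else 0 := fun I' L' => by
    have := congrFun (congrFun hQ L') I'
    rw [Matrix.mul_apply, Fin.sum_univ_two, Matrix.one_apply] at this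
    exact this
  have e' := e I L
  rw [hG.apply I 0, hG.apply I 1] at e'
  simp only [Fin.sum_univ_two, gam]
  by_cases h : I = J
  · subst h
    simp only [if_true, true_and, eq_comm (a := I) (b := L)]
    rw [← e']
    fin_cases I <;> simp <;> ring
  · simp only [if_neg h, false_and, if_false]
    fin_cases I <;> fin_cases J <;> simp at h ⊢ <;> ring

lemma linkRicci_adInv {G Q : Matrix (Fin 2) (Fin 2) ℝ} (hG : G.IsSymm) (hQ : Q * G = 1)
    (i j : Fin 6) :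
    linkRicci (adInv G) linkC i j = adInv (ric G Q) i j := by
  simp only [linkRicci, linkGamma_adInv hG hQ, linkC_apply, adInv_apply]
  generalize lkE i = x, lkE j = y
  obtain ⟨I, a⟩ := x
  obtain ⟨J, b⟩ := y
  have hrw : ∀ k d : Fin 2 × Fin 3,
      eps3 a b d.2 * gam G Q I J d.1 * (eps3 k.2 d.2 k.2 * gam G Q k.1 d.1 k.1) -
        eps3 k.2 b d.2 * gam G Q k.1 J d.1 * (eps3 a d.2 k.2 * gam G Q I d.1 k.1) -
        (if k.1 = I ∧ I = d.1 then eps3 k.2 a d.2 else 0) *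
          (eps3 d.2 b k.2 * gam G Q d.1 J k.1) =
      -(eps3 k.2 b d.2 * eps3 a d.2 k.2) * (gam G Q k.1 J d.1 * gam G Q I d.1 k.1) -
        eps3 k.2 a d.2 * eps3 d.2 b k.2 * (if k.1 = I ∧ I = d.1 then gam G Q I J I else 0) := by
    intro k d
    rw [eps3_diag]
    split_ifs with h
    · obtain ⟨h1, h2⟩ := h
      rw [h1, ← h2]; ring
    · ring
  simp only [hrw]
  have hsum : ∀ T : Fin 2 × Fin 3 → Fin 2 × Fin 3 → ℝ,
      ∑ k, ∑ d, T (lkE k) (lkE d) = ∑ K, ∑ f, ∑ D, ∑ g, T (K, f) (D, g) := by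
    intro T
    rw [sum_lk (fun k => ∑ d, T k (lkE d))]
    exact Finset.sum_congr rfl fun K _ => Finset.sum_congr rfl fun f _ => sum_lk (T (K, f))
  rw [hsum (fun k d => -(eps3 k.2 b d.2 * eps3 a d.2 k.2) *
    (gam G Q k.1 J d.1 * gam G Q I d.1 k.1) -
      eps3 k.2 a d.2 * eps3 d.2 b k.2 * if k.1 = I ∧ I = d.1 then gam G Q I J I else 0)]
  simp only [Finset.sum_sub_distrib]
  have swap : ∀ (A : Fin 3 → Fin 3 → ℝ) (B : Fin 2 → Fin 2 → ℝ),
      ∑ K, ∑ f, ∑ D, ∑ g, A f g * B K D = (∑ f, ∑ g, A f g) * ∑ K, ∑ D, B K D := by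
    intro A B
    rw [Finset.mul_sum]
    refine Finset.sum_congr rfl fun K _ => ?_
    rw [Finset.mul_sum, Finset.sum_comm]
    refine Finset.sum_congr rfl fun D _ => ?_
    rw [Finset.sum_mul]
    exact Finset.sum_congr rfl fun f _ => (Finset.sum_mul _ _ _).symm
  rw [swap (fun f g => -(eps3 f b g * eps3 a g f)) fun K D => gam G Q K J D * gam G Q I D K,
    swap (fun f g => eps3 f a g * eps3 g b f)
      fun K D => if K = I ∧ I = D then gam G Q I J I else 0]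
  simp only [Finset.sum_neg_distrib, eps3_pair, eps3_pair', ite_and, Finset.sum_ite_eq,
    Finset.sum_ite_eq', Finset.mem_univ, if_true]
  by_cases h : a = b <;> simp [h, ric] <;> ring

lemma quad_adInv (B : Matrix (Fin 2) (Fin 2) ℝ) (hB : B 1 0 = B 0 1) (hd : B 1 1 = B 0 0)
    (w : Fin 6 → ℝ) :
    ∑ i, ∑ j, adInv B i j * w i * w j = ∑ a,
      ((B 0 0 + B 0 1) * ((w (lkE.symm (0, a)) + w (lkE.symm (1, a))) ^ 2 / 2) +
        (B 0 0 - B 0 1) * ((w (lkE.symm (0, a)) - w (lkE.symm (1, a))) ^ 2 / 2)) := by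
  have hrow : ∀ i, ∑ j, adInv B i j * w i * w j =
      ∑ J, B (lkE i).1 J * w i * w (lkE.symm (J, (lkE i).2)) := by
    intro i
    rw [← Equiv.sum_comp lkE.symm, Fintype.sum_prod_type]
    simp [adInv_apply]
  rw [Finset.sum_congr rfl fun i _ => hrow i, ← Equiv.sum_comp lkE.symm, Fintype.sum_prod_type,
    Finset.sum_comm]
  refine Finset.sum_congr rfl fun a _ => ?_
  simp only [Equiv.apply_symm_apply, Fin.sum_univ_two, hB, hd]
  ring

/-- The Gram block on the line. -/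
def lineG (P θ : ℝ) : Matrix (Fin 2) (Fin 2) ℝ :=
  (1 / (Real.sqrt 3 * P * Real.sqrt (1 + 2 * θ))) • !![1 + θ, -θ; -θ, 1 + θ]

lemma lineQ_mul {P θ : ℝ} (hP : 0 < P) (h0 : 0 ≤ θ) : lineQ P θ * lineG P θ = 1 := by
  have h3 : Real.sqrt 3 ≠ 0 := (Real.sqrt_pos.2 (by norm_num)).ne'
  have hD : Real.sqrt (1 + 2 * θ) ≠ 0 := (Real.sqrt_pos.2 (by linarith)).ne'
  have hD2 := Real.sq_sqrt (show (0 : ℝ) ≤ 1 + 2 * θ by linarith)
  ext i j
  fin_cases i <;> fin_cases j <;>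
    simp [lineQ, lineG, Matrix.mul_apply, Fin.sum_univ_two] <;> field_simp <;> linarith

lemma lineM_eq {P θ : ℝ} (hP : 0 < P) (h0 : 0 ≤ θ) : lineM P θ = adInv (lineG P θ) :=
  Matrix.inv_eq_right_inv (adInv_mul_eq_one (lineQ_mul hP h0))

lemma lineG_isSymm (P θ : ℝ) : (lineG P θ).IsSymm := by
  refine Matrix.IsSymm.ext fun i j => ?_
  fin_cases i <;> fin_cases j <;> simp [lineG]

/-- The two eigenvalues of the reduced Ricci tensor on the line. -/
lemma ric_line {P θ : ℝ} (hP : 0 < P) (h0 : 0 ≤ θ) :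
    let t := θ / (2 * (1 + 2 * θ))
    ric (lineG P θ) (lineQ P θ) 0 0 = 1 / 2 + 2 * t ^ 2 ∧
      ric (lineG P θ) (lineQ P θ) 1 1 = 1 / 2 + 2 * t ^ 2 ∧
      ric (lineG P θ) (lineQ P θ) 0 1 = -2 * t + 2 * t ^ 2 ∧
      ric (lineG P θ) (lineQ P θ) 1 0 = -2 * t + 2 * t ^ 2 := by
  intro t
  have h3 : Real.sqrt 3 ≠ 0 := (Real.sqrt_pos.2 (by norm_num)).ne'
  have hD0 : 0 < 1 + 2 * θ := by linarith
  have hc : ∀ x y : ℝ, (1 / (Real.sqrt 3 * P * Real.sqrt (1 + 2 * θ)) * x) *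
      (Real.sqrt 3 * P / Real.sqrt (1 + 2 * θ) * y) = x * y / (1 + 2 * θ) := by
    intro x y
    have hD : Real.sqrt (1 + 2 * θ) ≠ 0 := (Real.sqrt_pos.2 hD0).ne'
    field_simp
    rw [Real.sq_sqrt hD0.le]
  have hγ : ∀ I J L : Fin 2, gam (lineG P θ) (lineQ P θ) I J L =
      (1 / 2) * ((if I = J ∧ I = L then 1 else 0) +
        (!![1 + θ, -θ; -θ, 1 + θ] I J) *
          ((!![1 + θ, θ; θ, 1 + θ] L I) - (!![1 + θ, θ; θ, 1 + θ] L J)) / (1 + 2 * θ)) := by
    intro I J L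
    simp only [gam, lineG, lineQ, Matrix.smul_apply, smul_eq_mul]
    rw [← mul_sub, hc]
  simp only [ric, hγ, Fin.sum_univ_two]
  refine ⟨?_, ?_, ?_, ?_⟩ <;> simp [t] <;> field_simp <;> ring

lemma f1_bound {D : ℝ} (h1 : 1 ≤ D) (h3 : D ≤ 3) :
    306 / 100 * D ^ 3 ≤ (D ^ 2 + 1) ^ 2 := by
  nlinarith [sq_nonneg (D - 1732 / 1000), sq_nonneg (D - 1), sq_nonneg (D ^ 2 - 3),
    mul_nonneg (sub_nonneg.2 h1) (sub_nonneg.2 h3), sq_nonneg (D * (D - 1732 / 1000))]

lemma f2_bound {D : ℝ} (h1 : 1 ≤ D) (h3 : D ≤ 3) :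
    77 / 100 * D ^ 3 ≤ (2 * D - 1) ^ 2 := by
  nlinarith [mul_nonneg (sub_nonneg.2 h1) (sub_nonneg.2 h3),
    mul_nonneg (mul_nonneg (sub_nonneg.2 h1) (sub_nonneg.2 h3)) (by linarith : (0 : ℝ) ≤ D)]

/-- From a bound on squares to the two eigenvalue inequalities. -/
lemma eig_bound {P D X K : ℝ} (hP : 67 / 10 ≤ P) (hD : 0 < D) (hX : 0 ≤ X) (hK : 0 ≤ K)
    (h : (101 / 20) ^ 2 * D ^ 3 ≤ 3 * (67 / 10) ^ 2 * X ^ 2 * K ^ 2) :
    101 / 20 ≤ Real.sqrt 3 * P * X * K / (D * Real.sqrt D) := by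
  have hs : 0 < Real.sqrt D := Real.sqrt_pos.2 hD
  rw [le_div_iff₀ (mul_pos hD hs)]
  have h3 := Real.sq_sqrt (show (0 : ℝ) ≤ 3 by norm_num)
  have hD2 := Real.sq_sqrt hD.le
  refine le_trans ?_ (show Real.sqrt 3 * (67 / 10) * X * K ≤ Real.sqrt 3 * P * X * K by gcongr)
  refine (pow_le_pow_iff_left₀ (by positivity) (by positivity) two_ne_zero).1 ?_
  rw [mul_pow, mul_pow D, hD2, mul_pow, mul_pow, mul_pow, h3]
  linarith

end LinkLine

open LinkLine in
theorem lineM_posDef {P θ : ℝ} (hP : 0 < P) (h0 : 0 ≤ θ) : (lineM P θ).PosDef := by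
  rw [lineM_eq hP h0]
  have hc : 0 < 1 / (Real.sqrt 3 * P * Real.sqrt (1 + 2 * θ)) := by
    have : 0 < Real.sqrt (1 + 2 * θ) := Real.sqrt_pos.2 (by linarith)
    positivity
  refine Matrix.PosDef.of_dotProduct_mulVec_pos ?_ fun w hw => ?_
  · exact Matrix.IsHermitian.ext fun i j => by
      simp only [star_trivial, adInv_apply, (lineG_isSymm P θ).apply, eq_comm]
  · have e : star w ⬝ᵥ adInv (lineG P θ) *ᵥ w =
        ∑ i, ∑ j, adInv (lineG P θ) i j * w i * w j := by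
      simp only [dotProduct, Matrix.mulVec, star_trivial, Finset.mul_sum]
      exact Finset.sum_congr rfl fun i _ => Finset.sum_congr rfl fun j _ => by ring
    rw [e, quad_adInv _ (by simp [lineG]) (by simp [lineG])]
    set c := 1 / (Real.sqrt 3 * P * Real.sqrt (1 + 2 * θ))
    have h00 : lineG P θ 0 0 + lineG P θ 0 1 = c := by simp [lineG, c]; ring
    have h01 : lineG P θ 0 0 - lineG P θ 0 1 = c * (1 + 2 * θ) := by simp [lineG, c]; ring
    simp only [h00, h01]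
    have hcD : 0 < c * (1 + 2 * θ) := mul_pos hc (by linarith)
    obtain ⟨i, hi⟩ := Function.ne_iff.1 hw
    refine Finset.sum_pos' (fun a _ => by positivity) ⟨(lkE i).2, Finset.mem_univ _, ?_⟩
    by_contra hn
    rw [not_lt] at hn
    set x := w (lkE.symm (0, (lkE i).2))
    set y := w (lkE.symm (1, (lkE i).2))
    have h1 : (x + y) ^ 2 = 0 := by nlinarith [sq_nonneg (x + y), sq_nonneg (x - y)]
    have h2 : (x - y) ^ 2 = 0 := by nlinarith [sq_nonneg (x + y), sq_nonneg (x - y)]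
    rw [sq_eq_zero_iff] at h1 h2
    apply hi
    have hx : lkE.symm ((lkE i).1, (lkE i).2) = i := lkE.symm_apply_apply i
    obtain h | h : (lkE i).1 = 0 ∨ (lkE i).1 = 1 := by generalize (lkE i).1 = I; fin_cases I <;> simp
    all_goals rw [h] at hx; simp only [x, y, hx] at h1 h2; simp only [Pi.zero_apply]; linarith

open LinkLine in
theorem lineM_det {P θ : ℝ} (hP : 0 < P) (h0 : 0 ≤ θ) :
    (lineM P θ).det = ((3 * P ^ 2) ^ 3)⁻¹ := by
  have hD : 0 < Real.sqrt (1 + 2 * θ) := Real.sqrt_pos.2 (by linarith)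
  have hD2 := Real.sq_sqrt (show (0 : ℝ) ≤ 1 + 2 * θ by linarith)
  have h3 := Real.sq_sqrt (show (0 : ℝ) ≤ 3 by norm_num)
  rw [lineM_eq hP h0, det_adInv, ← inv_pow]
  congr 1
  rw [lineG, Matrix.det_smul, Matrix.det_fin_two_of, Fintype.card_fin, div_pow, one_pow, mul_pow,
    mul_pow, h3, hD2]
  have : (1 + 2 * θ) ≠ 0 := by linarith
  field_simp
  ring

open LinkLine in
/-- Products of round spheres: the Ricci tensor is half the identity. -/
theorem linkRicci_product {α β : ℝ} (hα : 0 < α) (hβ : 0 < β) (i j : Fin 6) :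
    linkRicci (adInv !![α, 0; 0, β]) linkC i j = if i = j then 1 / 2 else 0 := by
  have hsym : (!![α, 0; 0, β] : Matrix (Fin 2) (Fin 2) ℝ).IsSymm :=
    Matrix.IsSymm.ext fun i j => by fin_cases i <;> fin_cases j <;> simp
  have hQ : !![α⁻¹, 0; 0, β⁻¹] * !![α, 0; 0, β] = (1 : Matrix (Fin 2) (Fin 2) ℝ) := by
    ext i j
    fin_cases i <;> fin_cases j <;>
      simp [Matrix.mul_apply, Fin.sum_univ_two, hα.ne', hβ.ne']
  rw [linkRicci_adInv hsym hQ, adInv_apply]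
  rcases eq_or_ne i j with h | h
  · subst h
    rw [if_pos rfl, if_pos rfl]
    generalize (lkE i).1 = I
    fin_cases I <;> simp [ric, gam, Fin.sum_univ_two] <;> norm_num
  · rw [if_neg h]
    split_ifs with h2
    · have h1 : (lkE i).1 ≠ (lkE j).1 := fun h1 => h (lkE.injective (Prod.ext h1 h2))
      revert h1
      generalize (lkE i).1 = I, (lkE j).1 = J
      intro h1
      fin_cases I <;> fin_cases J <;> simp [ric, gam, Fin.sum_univ_two] at h1 ⊢
    · rfl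

open LinkLine in
/-- The line stays above `5` with a margin. -/
theorem linkRicci_line : ∃ δ > (0 : ℝ), ∀ P ∈ Set.Icc (67 / 10 : ℝ) 7,
    ∀ θ ∈ Set.Icc (0 : ℝ) 1, ∀ w : Fin 6 → ℝ,
      (5 + δ) * ∑ i, ∑ j, lineM P θ i j * w i * w j ≤
        ∑ i, ∑ j, linkRicci (lineM P θ) linkC i j * w i * w j := by
  refine ⟨1 / 20, by norm_num, fun P hP θ hθ w => ?_⟩
  have hP0 : 0 < P := by linarith [hP.1]
  simp only [lineM_eq hP0 hθ.1, linkRicci_adInv (lineG_isSymm P θ) (lineQ_mul hP0 hθ.1)]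
  obtain ⟨r00, r11, r01, r10⟩ := ric_line hP0 hθ.1
  rw [quad_adInv _ (by simp [lineG]) (by simp [lineG]),
    quad_adInv _ (r10.trans r01.symm) (r11.trans r00.symm), r00, r01, Finset.mul_sum]
  refine Finset.sum_le_sum fun a _ => ?_
  have hG0 : lineG P θ 0 0 + lineG P θ 0 1 =
      1 / (Real.sqrt 3 * P * Real.sqrt (1 + 2 * θ)) := by simp [lineG]; ring
  have hG1 : lineG P θ 0 0 - lineG P θ 0 1 =
      (1 + 2 * θ) / (Real.sqrt 3 * P * Real.sqrt (1 + 2 * θ)) := by simp [lineG]; ring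
  rw [hG0, hG1]
  obtain ⟨D, hD⟩ : ∃ D, D = 1 + 2 * θ := ⟨_, rfl⟩
  have hD1 : 1 ≤ D := by linarith [hθ.1]
  have hD3 : D ≤ 3 := by linarith [hθ.2]
  have hD0 : 0 < D := by linarith
  have hθD : θ = (D - 1) / 2 := by linarith
  rw [← hD, hθD]
  have hs : 0 < Real.sqrt D := Real.sqrt_pos.2 hD0
  have h3 : 0 < Real.sqrt 3 := Real.sqrt_pos.2 (by norm_num)
  have hu : 0 < Real.sqrt 3 * P * Real.sqrt D := by positivity
  have k1 := eig_bound (P := P) (D := D) (X := D ^ 2 + 1) (K := 1 / 4) hP.1 hD0 (by positivity)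
    (by norm_num) (by nlinarith [f1_bound hD1 hD3, pow_pos hD0 3])
  have k2 := eig_bound (P := P) (D := D) (X := 2 * D - 1) (K := 1 / 2) hP.1 hD0 (by linarith)
    (by norm_num) (by nlinarith [f2_bound hD1 hD3, pow_pos hD0 3])
  have hsD : Real.sqrt D * Real.sqrt D = D := Real.mul_self_sqrt hD0.le
  have e1 : (1 / 2 + 2 * ((D - 1) / 2 / (2 * D)) ^ 2) +
      (-2 * ((D - 1) / 2 / (2 * D)) + 2 * ((D - 1) / 2 / (2 * D)) ^ 2) =
      Real.sqrt 3 * P * (D ^ 2 + 1) * (1 / 4) / (D * Real.sqrt D) *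
        (1 / (Real.sqrt 3 * P * Real.sqrt D)) := by
    field_simp
    rw [sq (Real.sqrt D), hsD]
    ring
  have e2 : (1 / 2 + 2 * ((D - 1) / 2 / (2 * D)) ^ 2) -
      (-2 * ((D - 1) / 2 / (2 * D)) + 2 * ((D - 1) / 2 / (2 * D)) ^ 2) =
      Real.sqrt 3 * P * (2 * D - 1) * (1 / 2) / (D * Real.sqrt D) *
        (D / (Real.sqrt 3 * P * Real.sqrt D)) := by
    field_simp
    rw [sq (Real.sqrt D), hsD]
    ring
  rw [e1, e2, mul_add, ← mul_assoc, ← mul_assoc, show (5 : ℝ) + 1 / 20 = 101 / 20 by norm_num]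
  gcongr

end Vale.Agent.P225
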